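import Vale.Agent.P299G40.Rows
import Vale.Agent.P300LC.Main

/-!
# P299G50: the manifold of an irreducible variety is connected
-/

set_option linter.all false

open Set Filter Topology
open scoped Manifold ContDiff
open Function (Injective)
open Vale.Agent.P300.Final Vale.Agent.P300LC
open Vale.Agent.P009.AV (IsZar IrrClosed)

namespace Vale.Agent.P299G50

variable {n M : ℕ} {X : Type} [TopologicalSpace X] [ChartedSpace (Vn n) X]
  {Φ : X → Projectivization ℂ (Vn M)} {K : Set X}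

theorem con_coneK (hΦ : IsProjectiveImmersion (Vn n) Φ) (ho : IsOpen K) (hc : IsPreconnected K) :
    IsPreconnected (cone Φ K) := by
  refine isPreconnected_of_forall_constant fun f hf => ?_
  have a : ∀ x ∈ K, ∀ v, v ≠ 0 → v ∈ (Φ x).submodule → f v = f (Φ x).rep := fun x xK v v0 hv => by
    rw [Projectivization.submodule_eq, Submodule.mem_span_singleton] at hv
    obtain ⟨a, rfl⟩ := hv
    conv_rhs => rw [← one_smul ℂ (Φ x).rep]
    exact (isConnected_compl_singleton_of_one_lt_rank (E := ℂ) (by simp) 0).2.constant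
      (f := fun a : ℂ => f (a • (Φ x).rep)) (hf.comp (by fun_prop) fun a ha =>
        ⟨smul_ne_zero ha (Φ x).rep_nonzero, x, xK, Submodule.smul_mem _ _
          ((mem_iff (Φ x).rep_nonzero).2 (Φ x).mk_rep.symm)⟩) (left_ne_zero_of_smul v0) one_ne_zero
  have b : ContinuousOn (fun x => f (Φ x).rep) K := fun x xK => ContinuousAt.continuousWithinAt <| by
    obtain ⟨W, s, w, ⟨o, d⟩, c, -⟩ := hΦ x
    have m : ∀ y ∈ W, s y ∈ (Φ y).submodule := fun y hy => (mem_hc (c y hy)).2 ⟨1, one_smul _ _⟩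
    refine ContinuousAt.congr (f := f ∘ s) ((hf _ ⟨(c x w).1, x, xK, m x w⟩).tendsto.comp
      (tendsto_nhdsWithin_iff.2 ⟨(d.contMDiffAt (o.mem_nhds w)).continuousAt, ?_⟩)) ?_
    · filter_upwards [o.mem_nhds w, ho.mem_nhds xK] with y hy yK using ⟨(c y hy).1, y, yK, m y hy⟩
    · filter_upwards [o.mem_nhds w, ho.mem_nhds xK] with y hy yK using
        a y yK _ (c y hy).1 (m y hy)
  rintro v ⟨v0, x, xK, hx⟩ w ⟨w0, y, yK, hy⟩
  rw [a x xK v v0 hx, a y yK w w0 hy]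
  exact hc.constant b xK yK

theorem nhds_coneK [CompactSpace X] (inj : Injective Φ) (hΦ : IsProjectiveImmersion (Vn n) Φ)
    (ho : IsOpen K) {v : Vn M} (hv : v ∈ cone Φ K) : 𝓝[cone Φ univ] v = 𝓝[cone Φ K] v := by
  obtain ⟨v0, x, xK, hx⟩ := hv
  rw [nhdsWithin_eq_iff_eventuallyEq]
  filter_upwards [(cl_cone hΦ ho.isClosed_compl).isOpen_compl.mem_nhds fun h =>
    h.elim v0 fun ⟨_, y, y1, y2⟩ =>
      y1 (inj (((mem_iff v0).1 y2).trans ((mem_iff v0).1 hx).symm) ▸ xK)] with z hz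
  refine propext ⟨fun ⟨z0, y, _, hy⟩ => ⟨z0, y, by_contra fun b => hz (Or.inr ⟨z0, y, b, hy⟩), hy⟩,
    fun ⟨z0, y, _, hy⟩ => ⟨z0, y, trivial, hy⟩⟩

theorem zar_image {N : ℕ} {Φ : X → Projectivization ℂ (Vn (N + 1))} [CompactSpace X]
    (inj : Injective Φ) (hΦ : IsProjectiveImmersion (Vn n) Φ) (ho : IsOpen K) (hk : IsClosed K)
    (hc : IsConnected K) : IsZar (Φ '' K) := by
  obtain ⟨x, xK⟩ := hc.1
  obtain ⟨S, ⟨h1, h2⟩, -⟩ := Cn.main (n := n) (C := cone Φ K) (Z := Φ '' K)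
    ⟨fun h => h.1 rfl, fun v ⟨a, x, b, c⟩ s hs =>
      ⟨smul_ne_zero hs a, x, b, Submodule.smul_mem _ _ c⟩, cl_cone hΦ hk, con_coneK hΦ ho hc.2,
      fun v hv => by
        obtain ⟨σ, u, p⟩ := par_cone inj hΦ (v := v) ⟨hv.1, hv.2.imp fun y hy => ⟨trivial, hy.2⟩⟩
        exact ⟨σ, u, p.an, p.val, p.imm, p.nh.trans (nhds_coneK inj hΦ ho hv)⟩⟩
    ⟨_, (Φ x).rep_nonzero, x, xK, (mem_iff (Φ x).rep_nonzero).2 (Φ x).mk_rep.symm⟩ fun z hz =>
    ⟨fun ⟨x, xK, a⟩ => ⟨hz, x, xK, (mem_iff hz).2 a⟩,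
      fun ⟨_, x, xK, a⟩ => ⟨x, xK, (mem_iff hz).1 a⟩⟩
  refine ⟨S, h1, fun P => ?_⟩
  rw [← h2 P.rep P.rep_nonzero, P.mk_rep]

theorem zar_empty {N : ℕ} : IsZar (∅ : Set (P299G40.PN N)) :=
  ⟨{1}, fun f hf => ⟨0, hf ▸ MvPolynomial.isHomogeneous_one _ _⟩, fun P =>
    ⟨False.elim, fun h => one_ne_zero ((map_one _).symm.trans (h 1 rfl))⟩⟩

theorem zar_union {N : ℕ} {A B : Set (P299G40.PN N)} (a : IsZar A) (b : IsZar B) :
    IsZar (A ∪ B) := by
  obtain ⟨I, i1, i2⟩ := a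
  obtain ⟨J, j1, j2⟩ := b
  refine ⟨image2 (· * ·) I J, ?_, fun P => ⟨?_, fun h => ?_⟩⟩
  · rintro _ ⟨f, hf, g, hg, rfl⟩
    obtain ⟨d, hd⟩ := i1 f hf
    obtain ⟨e, he⟩ := j1 g hg
    exact ⟨d + e, hd.mul he⟩
  · rintro (h | h) _ ⟨f, hf, g, hg, rfl⟩
    · exact (map_mul _ f g).trans (by rw [(i2 P).1 h f hf, zero_mul])
    · exact (map_mul _ f g).trans (by rw [(j2 P).1 h g hg, mul_zero])
  · refine or_iff_not_imp_left.2 fun c => (j2 P).2 fun g hg => by_contra fun d => c ?_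
    exact (i2 P).2 fun f hf => (mul_eq_zero.1 ((map_mul _ f g).symm.trans
      (h _ ⟨f, hf, g, hg, rfl⟩))).resolve_right d

theorem irr_finset {N : ℕ} {ι : Type} {Z : Set (P299G40.PN N)} (hZ : IrrClosed Z)
    (A : ι → Set (P299G40.PN N)) (hA : ∀ i, IsZar (A i)) (t : Finset ι) :
    IsZar (⋃ i ∈ t, A i) ∧ (Z ⊆ ⋃ i ∈ t, A i → ∃ i, Z ⊆ A i) := by
  classical
  induction t using Finset.induction_on with
  | empty =>
    simp only [Finset.notMem_empty, iUnion_of_empty, iUnion_empty]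
    exact ⟨zar_empty, fun h => (hZ.2.1.mono h).not_subset_empty.elim subset_rfl⟩
  | insert i t _ ih =>
    rw [Finset.set_biUnion_insert]
    exact ⟨zar_union (hA i) ih.1, fun h => (hZ.2.2 _ _ (hA i) ih.1 h).elim (fun k => ⟨i, k⟩) ih.2⟩

/-- **CONN** -/
theorem conn : P299G40.CONN := by
  intro n N Z X _ _ _ _ _ Φ hZ ⟨inj, hΦ, hr⟩
  have : LocallyConnectedSpace X := ChartedSpace.locallyConnectedSpace (Vn n) X
  obtain ⟨t, ht⟩ := isCompact_univ.elim_finite_subcover (fun x : X => connectedComponent x)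
    (fun _ => isOpen_connectedComponent) fun x _ => mem_iUnion.2 ⟨x, mem_connectedComponent⟩
  obtain ⟨x, hx⟩ := (irr_finset hZ (fun x => Φ '' connectedComponent x) (fun x => zar_image inj hΦ
    isOpen_connectedComponent isClosed_connectedComponent isConnected_connectedComponent) t).2 (by
      rw [← hr]
      rintro _ ⟨y, rfl⟩
      obtain ⟨x, hx, hy⟩ := mem_iUnion₂.1 (ht (mem_univ y))
      exact mem_iUnion₂.2 ⟨x, hx, y, hy, rfl⟩)
  refine connectedSpace_iff_connectedComponent.2 ⟨x, eq_univ_of_forall fun y => ?_⟩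
  obtain ⟨y', h1, h2⟩ := hx (hr ▸ mem_range_self y)
  exact inj h2 ▸ h1

end Vale.Agent.P299G50
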