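import Vale.Agent.P299G40.Rows
import Vale.Agent.P299.H223.FS

/-!
# P299G50: algebraic sections of `-mK` are holomorphic
-/

set_option linter.all false

open Set Filter Topology MvPolynomial
open scoped Manifold ContDiff
open Vale.Agent.P300.Final Vale.Agent.P272.K Vale.Agent.P299.H223 Vale.Agent.P299G40
open Vale.Agent.P009.AV (aff)

namespace Vale.Agent.P299G50

variable {n N : ℕ} {X : Type} [TopologicalSpace X] [ChartedSpace (Cm n) X]
  [IsManifold 𝓘(ℂ, Cm n) ω X] {Φ : X → PN N} {e e' : Chart n X} {x : X} {i : Fin (N + 1)}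

/-- the affine coordinates are holomorphic in the charts -/
theorem aff_holo (hΦ : IsProjectiveImmersion (Cm n) Φ) (h : At e x) (hi : (Φ x).rep i ≠ 0) :
    (∀ᶠ z in 𝓝 (e x), (Φ (e.symm z)).rep i ≠ 0) ∧
      ∀ j, ContDiffAt ℂ ω (fun z => aff i (Φ (e.symm z)) j) (e x) := by
  obtain ⟨W, s, hx, L⟩ := exists_isLift hΦ x
  have hrep : ∀ y ∈ W, ∃ a : ℂ, a ≠ 0 ∧ (Φ y).rep = a • s y := fun y hy => by
    obtain ⟨a, ha⟩ := Projectivization.exists_smul_eq_mk_rep ℂ (s y) (L.ne y hy)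
    exact ⟨a, a.ne_zero, by rw [L.eq y hy, ← ha]; rfl⟩
  have hW : ∀ᶠ z in 𝓝 (e x), e.symm z ∈ W := (e.continuousAt_symm h.mem_target).eventually
    (L.isOpen.mem_nhds (by rw [h.left_inv]; exact hx))
  have hs : ∀ j, ContDiffAt ℂ ω (fun z => s (e.symm z) j) (e x) := fun j =>
    contDiffAt_pi.1 (L.holo x hx e h) j
  have h0 : s (e.symm (e x)) i ≠ 0 := by
    rw [h.left_inv]
    obtain ⟨a, -, ha⟩ := hrep x hx
    rw [ha] at hi
    exact right_ne_zero_of_mul hi
  refine ⟨?_, fun j => ((hs j).div (hs i) h0).congr_of_eventuallyEq ?_⟩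
  · filter_upwards [hW, (hs i).continuousAt.eventually_ne h0] with z h1 h2
    obtain ⟨a, a0, ha⟩ := hrep _ h1
    rw [ha]
    exact mul_ne_zero a0 h2
  · filter_upwards [hW] with z h1
    obtain ⟨a, a0, ha⟩ := hrep _ h1
    change (Φ (e.symm z)).rep j / (Φ (e.symm z)).rep i = _
    rw [ha]
    exact mul_div_mul_left _ _ a0

theorem jac_eq (hΦ : IsProjectiveImmersion (Cm n) Φ) (h : At e x) (hi : (Φ x).rep i ≠ 0)
    (J : Fin n → Fin (N + 1)) :
    jac Φ e i J x = (jmat (fun z k => aff i (Φ (e.symm z)) (J k)) (e x)).det := by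
  have hd := fun k => ((aff_holo hΦ h hi).2 (J k)).differentiableAt (by simp)
  unfold jac
  congr 1
  ext k l
  rw [jmat_apply (differentiableAt_pi.2 hd), fderiv_pi hd]
  rfl

/-- the chain rule for `jac` -/
theorem jac_change (hΦ : IsProjectiveImmersion (Cm n) Φ) (h : At e x) (h' : At e' x)
    (hi : (Φ x).rep i ≠ 0) (J : Fin n → Fin (N + 1)) :
    jac Φ e i J x = jac Φ e' i J x * (jacM e e' x).det := by
  have h2 : e' (e.symm (e x)) = e' x := by rw [h.left_inv]
  have hc := jmat_comp (τ := fun z => e' (e.symm z))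
    (σ := fun z k => aff i (Φ (e'.symm z)) (J k)) (z := e x)
    (by
      rw [h2]
      exact differentiableAt_pi.2 fun k =>
        ((aff_holo hΦ h' hi).2 (J k)).differentiableAt (by simp))
    (transition_differentiableAt h h')
  rw [jac_eq hΦ h hi, jac_eq hΦ h' hi, jacM_eq, ← Matrix.det_mul, ← h2, ← hc]
  congr 1
  apply jmat_congr
  filter_upwards [h.nhds_at h'] with z hz
  rw [hz.2.2.left_inv]

theorem jac_holo (hΦ : IsProjectiveImmersion (Cm n) Φ) (h : At e x) (hi : (Φ x).rep i ≠ 0)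
    (J : Fin n → Fin (N + 1)) : ContDiffAt ℂ ω (fun z => jac Φ e i J (e.symm z)) (e x) := by
  have h1 : ContDiffAt ℂ ω (fun z k => aff i (Φ (e.symm z)) (J k)) (e x) :=
    contDiffAt_pi.2 fun k => (aff_holo hΦ h hi).2 (J k)
  have h2 : ContDiffAt ℂ ω (fun y => ∑ σ : Equiv.Perm (Fin n), (Equiv.Perm.sign σ : ℂ) *
      ∏ l, jmat (fun z k => aff i (Φ (e.symm z)) (J k)) y (σ l) l) (e x) :=
    ContDiffAt.sum fun σ _ => contDiffAt_const.mul (contDiffAt_prod fun l _ => jmat_holo h1 _ _)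
  refine h2.congr_of_eventuallyEq ?_
  filter_upwards [h.nhds_at h, (aff_holo hΦ h hi).1] with z hz h3
  rw [jac_eq hΦ hz.2.1 h3, e.right_inv hz.1, Matrix.det_apply']

theorem eval_aff {P : MvPolynomial (Fin (N + 1)) ℂ} {d : ℕ} (hP : P.IsHomogeneous d) (z : PN N) :
    eval (aff i z) P = (z.rep i)⁻¹ ^ d * eval z.rep P := by
  have h1 : aff i z = (z.rep i)⁻¹ • z.rep := funext fun j => div_eq_inv_mul _ _
  rw [h1, eval_eq', eval_eq', Finset.mul_sum]
  refine Finset.sum_congr rfl fun m hm => ?_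
  have h2 : ∑ j, m j = d := by
    rw [← hP (mem_support_iff.1 hm), Finsupp.weight_apply, Finsupp.sum_fintype _ _ (by simp)]
    simp
  simp only [Pi.smul_apply, smul_eq_mul, mul_pow, Finset.prod_mul_distrib,
    Finset.prod_pow_eq_pow_sum, h2]
  ring

theorem eval_holo (hΦ : IsProjectiveImmersion (Cm n) Φ) (h : At e x) (hi : (Φ x).rep i ≠ 0)
    (P : MvPolynomial (Fin (N + 1)) ℂ) :
    ContDiffAt ℂ ω (fun z => eval (aff i (Φ (e.symm z))) P) (e x) := by
  induction P using MvPolynomial.induction_on with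
  | C a => simpa using contDiffAt_const
  | add p q hp hq => simpa using hp.add hq
  | mul_X p j hp => simpa using hp.mul ((aff_holo hΦ h hi).2 j)

/-- **HOL** -/
theorem hol (frm : FRM) : HOL := by
  intro n N Z X _ _ _ Φ hZ hA m g hg
  have hΦ := hA.2.1
  have F := frm n N Z X Φ hZ hA
  choose I J hIJ using fun x : X =>
    (F (chartAt (Cm n) x) x ⟨chart_mem_atlas _ _, mem_chart_source _ _⟩).2.2
  let s : Chart n X → Cm n → ℂ := fun e z =>
    g (I (e.symm z)) (J (e.symm z)) (Φ (e.symm z)) /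
      jac Φ e (I (e.symm z)) (J (e.symm z)) (e.symm z) ^ m
  have hs : ∀ e x, At e x → s e (e x) = g (I x) (J x) (Φ x) / jac Φ e (I x) (J x) x ^ m :=
    fun e x h => by simp only [s, h.left_inv]
  have rep : Represents Z Φ m s g := by
    intro e x i K h hd
    obtain ⟨w, hw, hv⟩ := hd.2.2
    obtain ⟨c, hc⟩ := (F e x h).1 w hw
    have h1 := hg.change i K (I x) (J x) _ hd (hIJ x) w hw
    rw [hc i K hd.2.1] at hv
    rw [hc i K hd.2.1, hc _ _ (hIJ x).2.1, mul_pow, mul_pow, ← mul_assoc, ← mul_assoc] at h1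
    have h2 := mul_right_cancel₀ (pow_ne_zero m (right_ne_zero_of_mul hv)) h1
    rw [hs e x h, div_mul_eq_mul_div, ← h2, mul_div_cancel_right₀]
    exact pow_ne_zero m (((F e x h).2.1 _ _).1 (hIJ x)).2
  refine ⟨s, ⟨fun e x h => ?_, fun e e' x h h' => ?_⟩, rep⟩
  · have hd := hIJ x
    have hi := hd.2.1
    have hj : jac Φ e (I x) (J x) (e.symm (e x)) ≠ 0 := by
      rw [h.left_inv]
      exact (((F e x h).2.1 _ _).1 hd).2
    obtain ⟨P, Q, d, hP, hQ, h0, hPQ⟩ := hg.regular (I x) (J x) _ hd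
    have hq : eval (aff (I x) (Φ (e.symm (e x)))) Q ≠ 0 := by
      rw [h.left_inv, eval_aff hQ]
      exact mul_ne_zero (pow_ne_zero _ (inv_ne_zero hi)) h0
    refine ContDiffAt.analyticAt (ContDiffAt.congr_of_eventuallyEq
      (((eval_holo hΦ h hi P).div (eval_holo hΦ h hi Q) hq).div
        ((jac_holo hΦ h hi (J x)).pow m) (pow_ne_zero m hj)) ?_)
    filter_upwards [h.nhds_at h, (aff_holo hΦ h hi).1,
      (jac_holo hΦ h hi (J x)).continuousAt.eventually_ne hj,
      (eval_holo hΦ h hi Q).continuousAt.eventually_ne hq] with z h1 h2 h3 h4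
    have h5 : Φ (e.symm z) ∈ dom Z (I x) (J x) := ((F e _ h1.2.1).2.1 _ _).2 ⟨h2, h3⟩
    have h6 := rep e _ _ _ h1.2.1 h5
    rw [e.right_inv h1.1] at h6
    rw [eval_aff hQ] at h4
    simp only [Pi.div_apply]
    rw [eq_div_iff (pow_ne_zero m h3), ← h6, hPQ _ h5 (right_ne_zero_of_mul h4), eval_aff hP,
      eval_aff hQ, mul_div_mul_left _ _ (left_ne_zero_of_mul h4)]
  · rw [hs e x h, hs e' x h', jac_change hΦ h h' (hIJ x).2.1, mul_pow, ← div_div,
      div_mul_cancel₀ _ (pow_ne_zero m (jacM_det_ne_zero h h'))]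

end Vale.Agent.P299G50
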